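import Vale.Agent.P082.Defs

namespace Vale.Agent.N082

open Vale.Agent.P082

/-- The Hochschild differential with coefficients in the bimodule `A` with the twisted actions
`a · x · b = π(a) x ρ(b)`, evaluated at `a = (a₀,…,a_k)`. For `π = ρ = id` this is `hochschild`. -/
def twisted {A : Type*} [Ring A] (π ρ : A → A) {k : ℕ} (f : (Fin k → A) → A)
    (a : Fin (k + 1) → A) : A :=
  π (a 0) * f (fun i => a i.succ)
    + ∑ j : Fin k, (-1) ^ ((j : ℕ) + 1) * f (contract j a)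
    + (-1) ^ (k + 1) * (f (fun i => a i.castSucc) * ρ (a (Fin.last k)))

universe v

variable (A : Type*) [NormedRing A] [NormedAlgebra ℂ A]

/-- For every bounded homomorphism `π` and every bounded automorphism `β` of the algebra `A`, the
bounded cohomology of `A` with coefficients in `A` with the actions `a · x · b = π(a) x β(b)`
vanishes in all degrees `k + 1 ≥ 1`. -/
def TwistedVanishes : Prop :=
  ∀ (π : A →L[ℂ] A) (β : A ≃L[ℂ] A), (∀ x y, π (x * y) = π x * π y) →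
    (∀ x y, β (x * y) = β x * β y) →
    ∀ (k : ℕ) (f : ContinuousMultilinearMap ℂ (fun _ : Fin (k + 1) => A) A),
      (∀ a, twisted π β f a = 0) →
      ∃ g : ContinuousMultilinearMap ℂ (fun _ : Fin k => A) A, ∀ a, twisted π β g a = f a

/-- There is a bounded linear map `R` from the bounded linear maps `A → A` to `A` with `R(id) = 1`
and `R(x ↦ c φ(b x)) = c R(φ) b`. -/
def HasRetraction : Prop :=
  ∃ R : (A →L[ℂ] A) →L[ℂ] A, R (ContinuousLinearMap.id ℂ A) = 1 ∧
    ∀ (φ ψ : A →L[ℂ] A) (b c : A), (∀ x, ψ x = c * φ (b * x)) → R ψ = c * R φ * b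

/-- `A` is an injective normed right `A`-module: bounded module maps into `A` extend along every
bounded module map that has a bounded linear left inverse. -/
def InjectiveOverItself : Prop :=
  ∀ (X Y : Type v) [NormedAddCommGroup X] [NormedSpace ℂ X] [Module Aᵐᵒᵖ X]
    [IsScalarTower ℂ Aᵐᵒᵖ X] [IsBoundedSMul Aᵐᵒᵖ X] [NormedAddCommGroup Y] [NormedSpace ℂ Y]
    [Module Aᵐᵒᵖ Y] [IsScalarTower ℂ Aᵐᵒᵖ Y] [IsBoundedSMul Aᵐᵒᵖ Y]
    (i : X →L[Aᵐᵒᵖ] Y) (r : Y →L[ℂ] X), (∀ x, r (i x) = x) →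
    ∀ θ : X →L[Aᵐᵒᵖ] A, ∃ Θ : Y →L[Aᵐᵒᵖ] A, ∀ x, Θ (i x) = θ x

end Vale.Agent.N082
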