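import Vale.Agent.P082.Bd8.B5
import Vale.Agent.N082.Defs

/-!
# Algebra of the left twisted Hochschild differential
-/

namespace Vale.Agent.N082

open Vale.Agent.P082 Vale.Agent.P082.CB

section ring

variable {A : Type*} [Ring A]

/-- the differential for the actions `a · x · b = π(a) x b` -/
def td (π : A → A) {k : ℕ} (f : (Fin k → A) → A) (a : Fin (k + 1) → A) : A :=
  π (a 0) * f (fun i => a i.succ) + dpost f a

lemma td_eq_twisted (π : A → A) {k : ℕ} (f : (Fin k → A) → A) (a : Fin (k + 1) → A) :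
    td π f a = twisted π id f a := by
  unfold td twisted dpost
  rw [add_assoc]
  rfl

lemma td_eq (π : A → A) {k : ℕ} (f : (Fin k → A) → A) (a : Fin (k + 1) → A) :
    td π f a = hochschild f a + (π (a 0) - a 0) * f (fun i => a i.succ) := by
  rw [hochschild_eq_dpost, td, sub_mul]
  abel

lemma td_app (π : A → A) {k : ℕ} (f : (Fin (k + 1) → A) → A) (x : Fin (k + 1) → A) (b : A) :
    td π f (app x b) = π (x 0) * f (app (fun i => x i.succ) b)
      + ∑ j : Fin k, (-1) ^ ((j : ℕ) + 1) * f (app (contract j x) b)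
      + (-1) ^ (k + 1) * f (app (fun i => x i.castSucc) (x (Fin.last k) * b))
      + (-1) ^ (k + 2) * (f x * b) := by
  have h0 : app x b 0 = x 0 := by
    have := app_castSucc x b 0
    simpa using this
  rw [td_eq, hochschild_app, tail_app, h0, dpre, sub_mul]
  abel

end ring

variable {A : Type*} [NormedRing A] [NormedAlgebra ℂ A]

/-- bounded cochains -/
abbrev Co (A : Type*) [NormedRing A] [NormedAlgebra ℂ A] (k : ℕ) :=
  ContinuousMultilinearMap ℂ (fun _ : Fin k => A) A

lemma td_unfold (π : A → A) {k : ℕ} (g : (Fin k → A) → A) (x : Fin (k + 1) → A) :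
    td π g x = π (x 0) * g (fun i => x i.succ)
      + ∑ j : Fin k, ((-1 : ℂ) ^ ((j : ℕ) + 1)) • g (contract j x)
      + ((-1 : ℂ) ^ (k + 1)) • (g (fun i => x i.castSucc) * x (Fin.last k)) := by
  unfold td dpost
  simp only [neg_one_pow_mul, add_assoc]

/-- the cocycle identity as an identity of bounded maps in the last variable -/
lemma tcurry (π : A → A) {k : ℕ} (f : Co A (k + 1))
    (hf : ∀ a, td π (fun x => f x) a = 0) (x : Fin (k + 1) → A) :
    (mulL (π (x 0))).comp (f.curryRight (fun i => x i.succ))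
      + ∑ j : Fin k, ((-1 : ℂ) ^ ((j : ℕ) + 1)) • f.curryRight (contract j x)
      + ((-1 : ℂ) ^ (k + 1)) • (f.curryRight (fun i => x i.castSucc)).comp (mulL (x (Fin.last k)))
      + ((-1 : ℂ) ^ (k + 2)) • mulL (f x) = 0 := by
  ext b
  have h := hf (app x b)
  rw [td_app] at h
  simp only [neg_one_pow_mul] at h
  simpa [ContinuousMultilinearMap.curryRight_apply, app, sum_apply] using h

lemma td_add_smul (π : A → A) {k : ℕ} (g h : Co A k) (c : ℂ) (x : Fin (k + 1) → A) :
    td π (fun y => (h + c • g) y) x = td π (fun y => h y) x + c • td π (fun y => g y) x := by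
  rw [td_eq, td_eq, td_eq, hochschild_add_smul]
  simp only [add_apply, smul_apply, mul_add,
    mul_smul_comm, smul_add]
  abel

lemma td_zero (π : A → A) {k : ℕ} (x : Fin (k + 1) → A) :
    td π (fun y => (0 : Co A k) y) x = 0 := by
  rw [td_unfold]
  simp

lemma td_smul (π : A → A) {k : ℕ} (g : Co A k) (c : ℂ) (x : Fin (k + 1) → A) :
    td π (fun y => (c • g) y) x = c • td π (fun y => g y) x := by
  have h := td_add_smul π g 0 c x
  rw [td_zero, zero_add, zero_add] at h
  exact h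

lemma td_add (π : A → A) {k : ℕ} (g h : Co A k) (x : Fin (k + 1) → A) :
    td π (fun y => (h + g) y) x = td π (fun y => h y) x + td π (fun y => g y) x := by
  have h := td_add_smul π g h 1 x
  rwa [one_smul, one_smul] at h

lemma td_sum (π : A → A) {k : ℕ} {ι : Type*} (s : Finset ι) (g : ι → Co A k)
    (x : Fin (k + 1) → A) :
    td π (fun y => (∑ l ∈ s, g l) y) x = ∑ l ∈ s, td π (fun y => g l y) x := by
  classical
  induction s using Finset.induction_on with
  | empty => rw [Finset.sum_empty, Finset.sum_empty, td_zero]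
  | insert a s ha ih => rw [Finset.sum_insert ha, Finset.sum_insert ha, ← ih, td_add]

/-- `F` is the twisted coboundary of a bounded cochain -/
def TCob (π : A → A) {k : ℕ} (F : (Fin (k + 1) → A) → A) : Prop :=
  ∃ g : Co A k, ∀ a, td π (fun x => g x) a = F a

lemma TCob.add {π : A → A} {k : ℕ} {F G : (Fin (k + 1) → A) → A} (hF : TCob π F) (hG : TCob π G) :
    TCob π (fun x => F x + G x) := by
  obtain ⟨g, hg⟩ := hF
  obtain ⟨h, hh⟩ := hG
  exact ⟨g + h, fun a => by rw [td_add, hg, hh]⟩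

lemma TCob.smul {π : A → A} {k : ℕ} {F : (Fin (k + 1) → A) → A} (c : ℂ) (hF : TCob π F) :
    TCob π (fun x => c • F x) := by
  obtain ⟨g, hg⟩ := hF
  exact ⟨c • g, fun a => by rw [td_smul, hg]⟩

lemma TCob.congr {π : A → A} {k : ℕ} {F G : (Fin (k + 1) → A) → A} (hF : TCob π F)
    (h : ∀ x, F x = G x) : TCob π G := by
  obtain ⟨g, hg⟩ := hF
  exact ⟨g, fun a => by rw [hg, h]⟩

lemma TCob.sub {π : A → A} {k : ℕ} {F G : (Fin (k + 1) → A) → A} (hF : TCob π F) (hG : TCob π G) :
    TCob π (fun x => F x - G x) :=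
  (hF.add (hG.smul (-1))).congr fun x => by rw [neg_one_smul, sub_eq_add_neg]

/-- apply an average to the cocycle identity -/
lemma tavg {π : A → A} {k : ℕ} {a : (A →L[ℂ] A) →L[ℂ] A} (ha : IsAvg a) (f : Co A (k + 1))
    (hf : ∀ a, td π (fun x => f x) a = 0) (x : Fin (k + 1) → A) :
    π (x 0) * a (f.curryRight (fun i => x i.succ))
      + ∑ j : Fin k, ((-1 : ℂ) ^ ((j : ℕ) + 1)) • a (f.curryRight (contract j x))
      + ((-1 : ℂ) ^ (k + 1)) •
        a ((f.curryRight (fun i => x i.castSucc)).comp (mulL (x (Fin.last k))))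
      + ((-1 : ℂ) ^ (k + 2)) • f x = 0 := by
  have h := congrArg a (tcurry π f hf x)
  simp only [map_add, map_sum, map_smul, map_zero, ha.left, ha.mulL] at h
  exact h

/-- the cocycle identity composed with a left multiplication -/
lemma tavg_comp {π : A → A} {k : ℕ} {a : (A →L[ℂ] A) →L[ℂ] A} (ha : IsAvg a) (f : Co A (k + 1))
    (hf : ∀ a, td π (fun x => f x) a = 0) (x : Fin (k + 1) → A) (b : A) :
    π (x 0) * a ((f.curryRight (fun i => x i.succ)).comp (mulL b))
      + ∑ j : Fin k, ((-1 : ℂ) ^ ((j : ℕ) + 1)) • a ((f.curryRight (contract j x)).comp (mulL b))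
      + ((-1 : ℂ) ^ (k + 1)) •
        a ((f.curryRight (fun i => x i.castSucc)).comp (mulL (x (Fin.last k) * b)))
      + ((-1 : ℂ) ^ (k + 2)) • (f x * b) = 0 := by
  have h0 := congrArg (fun φ : A →L[ℂ] A => a (φ.comp (mulL b))) (tcurry π f hf x)
  have e1 : ∀ c d : A, (mulL c).comp (mulL d) = mulL (c * d) := by
    intro c d; ext y; simp [mul_assoc]
  simp only [ContinuousLinearMap.add_comp, ContinuousLinearMap.smul_comp,
    ContinuousLinearMap.zero_comp, map_add, map_smul, map_zero] at h0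
  rw [ContinuousLinearMap.comp_assoc, ha.left, ContinuousLinearMap.comp_assoc, e1, e1,
    ha.mulL] at h0
  have e2 : (∑ j : Fin k, ((-1 : ℂ) ^ ((j : ℕ) + 1)) • f.curryRight (contract j x)).comp (mulL b)
      = ∑ j : Fin k, ((-1 : ℂ) ^ ((j : ℕ) + 1)) • (f.curryRight (contract j x)).comp (mulL b) := by
    ext y
    simp
  rw [e2] at h0
  simp only [map_sum, map_smul] at h0
  exact h0

lemma td_gav {π : A → A} {k : ℕ} {a : (A →L[ℂ] A) →L[ℂ] A} (ha : IsAvg a) (f : Co A (k + 1))
    (hf : ∀ a, td π (fun x => f x) a = 0) (x : Fin (k + 1) → A) :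
    f x = fav a f x + ((-1 : ℂ) ^ (k + 1)) • td π (fun y => gav a f y) x := by
  have h := tavg ha f hf x
  have hx : fav a f x = fav a f (app (fun i => x i.castSucc) (x (Fin.last k))) := by
    rw [app_init]
  rw [hx, fav_app, td_unfold]
  simp only [gav_apply]
  have hs : ((-1 : ℂ) ^ (k + 1)) * ((-1 : ℂ) ^ (k + 1)) = 1 := by
    rw [← pow_add, ← two_mul, pow_mul]; simp
  have hs2 : ((-1 : ℂ) ^ (k + 2)) = - ((-1 : ℂ) ^ (k + 1)) := by ring
  rw [hs2] at h
  set s := ((-1 : ℂ) ^ (k + 1)) with hsdef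
  have h2 := congrArg (fun y => s • y) h
  simp only [smul_add, smul_smul, smul_zero, smul_neg, hs, one_smul, neg_smul] at h2
  simp only [smul_add, smul_smul, hs, one_smul]
  rw [add_neg_eq_zero] at h2
  rw [← h2]
  abel

lemma tfav_cocycle {π : A → A} {k : ℕ} {a : (A →L[ℂ] A) →L[ℂ] A} (ha : IsAvg a)
    (f : Co A (k + 1)) (hf : ∀ a, td π (fun x => f x) a = 0) (y : Fin (k + 2) → A) :
    td π (fun x => fav a f x) y = 0 := by
  obtain ⟨x, b, rfl⟩ : ∃ x b, y = app x b := ⟨_, _, (app_init y).symm⟩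
  have h1 := tavg ha f hf x
  have h2 := tavg_comp ha f hf x b
  rw [td_app]
  have hx : fav a f x = fav a f (app (fun i => x i.castSucc) (x (Fin.last k))) := by
    rw [app_init]
  rw [hx]
  simp only [fav_app, neg_one_pow_mul]
  have hs2 : ((-1 : ℂ) ^ (k + 2)) = - ((-1 : ℂ) ^ (k + 1)) := by ring
  rw [hs2] at h1 h2 ⊢
  set s := ((-1 : ℂ) ^ (k + 1)) with hsdef
  have h3 := congrArg (fun y => y * b) h1
  simp only [add_mul, Finset.sum_mul, zero_mul, smul_mul_assoc] at h3
  have e3 : ∑ j : Fin k, ((-1 : ℂ) ^ ((j : ℕ) + 1)) •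
      (a ((f.curryRight (contract j x)).comp (mulL b)) - a (f.curryRight (contract j x)) * b)
      = ∑ j : Fin k, ((-1 : ℂ) ^ ((j : ℕ) + 1)) •
          a ((f.curryRight (contract j x)).comp (mulL b))
        - ∑ j : Fin k, ((-1 : ℂ) ^ ((j : ℕ) + 1)) • (a (f.curryRight (contract j x)) * b) := by
    rw [← Finset.sum_sub_distrib]
    exact Finset.sum_congr rfl (fun j _ => smul_sub _ _ _)
  rw [e3]
  have h4 := congrArg₂ (fun u v => u - v) h2 h3
  simp only [sub_zero] at h4
  simp only [smul_sub, sub_mul, mul_sub, neg_smul, mul_assoc] at h4 ⊢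
  rw [← h4]
  abel

/-- a bimodule functional on a space `S` of maps, with value `e` at the identity, makes `f e` a
coboundary for every cocycle `f` whose last variable lies in `S` -/
lemma tcob_of_functional {π : A → A} (S : Submodule ℂ (A →L[ℂ] A))
    (hmul : ∀ (c : A) (ψ : A →L[ℂ] A), ψ ∈ S → (mulL c).comp ψ ∈ S)
    (hcomp : ∀ (b : A) (ψ : A →L[ℂ] A), ψ ∈ S → ψ.comp (mulL b) ∈ S)
    (hid : ContinuousLinearMap.id ℂ A ∈ S) (a : S →ₗ[ℂ] A) (e : A)
    (h2 : ∀ (c : A) (ψ : S), a ⟨(mulL c).comp ψ.1, hmul c ψ.1 ψ.2⟩ = c * a ψ)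
    (h3 : a ⟨ContinuousLinearMap.id ℂ A, hid⟩ = e)
    (h4 : ∀ (ψ : S) (b : A), a ⟨ψ.1.comp (mulL b), hcomp b ψ.1 ψ.2⟩ = a ψ * b)
    {k : ℕ} (f : Co A (k + 1))
    (hf : ∀ a, td π (fun x => f x) a = 0) (hS : ∀ x : Fin k → A, f.curryRight x ∈ S)
    {C : ℝ} (hbd : ∀ x : Fin k → A, ‖a ⟨f.curryRight x, hS x⟩‖ ≤ C * ∏ i, ‖x i‖) :
    TCob π (fun x => f x * e) := by
  set F := cobCur S f hS with hF
  set I : S := ⟨ContinuousLinearMap.id ℂ A, hid⟩ with hI
  set g : Co A k := (a.compMultilinearMap F).mkContinuous C hbd with hg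
  have hga : ∀ x, g x = a (F x) := fun x => rfl
  refine ⟨((-1 : ℂ) ^ (k + 1)) • g, fun x => ?_⟩
  rw [td_smul]
  have hE : (⟨(mulL (π (x 0))).comp (F (fun i => x i.succ)).1,
        hmul _ _ (F (fun i => x i.succ)).2⟩ : S)
      + ∑ j : Fin k, ((-1 : ℂ) ^ ((j : ℕ) + 1)) • F (contract j x)
      + ((-1 : ℂ) ^ (k + 1)) • (⟨(F (fun i => x i.castSucc)).1.comp (mulL (x (Fin.last k))),
        hcomp _ _ (F (fun i => x i.castSucc)).2⟩ : S)
      + ((-1 : ℂ) ^ (k + 2)) • (⟨(mulL (f x)).comp I.1, hmul _ _ I.2⟩ : S) = 0 := by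
    apply Subtype.ext
    have h5 := tcurry π f hf x
    rw [Submodule.coe_add, Submodule.coe_add, Submodule.coe_add, Submodule.coe_smul,
      Submodule.coe_smul, Submodule.coe_sum, Submodule.coe_zero]
    exact h5
  have h5 := congrArg a hE
  rw [map_add, map_add, map_add, map_smul, map_smul, map_sum, map_zero, h2, h4, h2, h3] at h5
  have h6 : ∀ j : Fin k, a (((-1 : ℂ) ^ ((j : ℕ) + 1)) • F (contract j x)) =
      ((-1 : ℂ) ^ ((j : ℕ) + 1)) • a (F (contract j x)) := fun j => map_smul _ _ _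
  rw [Finset.sum_congr rfl fun j _ => h6 j] at h5
  have hs2 : ((-1 : ℂ) ^ (k + 2)) = - ((-1 : ℂ) ^ (k + 1)) := by ring
  rw [hs2, neg_smul, add_neg_eq_zero] at h5
  have h7 : td π (fun y => g y) x = ((-1 : ℂ) ^ (k + 1)) • (f x * e) := by
    rw [← h5, td_unfold]
    simp only [hga]
  have hs : ((-1 : ℂ) ^ (k + 1)) * ((-1 : ℂ) ^ (k + 1)) = 1 := by
    rw [← pow_add, ← two_mul, pow_mul]; simp
  rw [h7, smul_smul, hs, one_smul]

/-- the same for a functional defined on all bounded maps -/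
lemma tcob_of_total {π : A → A} (a : (A →L[ℂ] A) →L[ℂ] A) (e : A)
    (h2 : ∀ (c : A) (ψ : A →L[ℂ] A), a ((mulL c).comp ψ) = c * a ψ)
    (h3 : a (ContinuousLinearMap.id ℂ A) = e)
    (h4 : ∀ (ψ : A →L[ℂ] A) (b : A), a (ψ.comp (mulL b)) = a ψ * b)
    {k : ℕ} (f : Co A (k + 1)) (hf : ∀ a, td π (fun x => f x) a = 0) :
    TCob π (fun x => f x * e) := by
  refine tcob_of_functional ⊤ (fun _ _ _ => trivial) (fun _ _ _ => trivial) trivial
    ((a : (A →L[ℂ] A) →ₗ[ℂ] A).comp (Submodule.subtype ⊤)) e (fun c ψ => h2 c ψ.1) h3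
    (fun ψ b => h4 ψ.1 b) f hf (fun _ => trivial) (C := ‖a‖ * ‖f‖) (fun x => ?_)
  show ‖a (f.curryRight x)‖ ≤ _
  have h := f.curryRight.le_opNorm x
  rw [ContinuousMultilinearMap.curryRight_norm] at h
  calc ‖a (f.curryRight x)‖ ≤ ‖a‖ * ‖f.curryRight x‖ := a.le_opNorm _
    _ ≤ ‖a‖ * (‖f‖ * ∏ i, ‖x i‖) := by gcongr
    _ = _ := by ring

/-- Homotopy: if `σ` is multiplicative, `σ(x) S = S x` and `T π(σ x) = π(x) T`, then
`T π(S) f(x₁,…) - T f(σx₁,…) S` is a coboundary. -/
theorem thomotopy {π : A → A} {k : ℕ} (f : Co A (k + 1))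
    (hf : ∀ a, td π (fun x => f x) a = 0)
    (σ : A →L[ℂ] A) (hσ : ∀ x y, σ (x * y) = σ x * σ y) (S T : A)
    (hS : ∀ x, σ x * S = S * x) (hT : ∀ x, T * π (σ x) = π x * T)
    (hσ1 : ‖σ‖ ≤ 1) (hS1 : ‖S‖ ≤ 1) :
    ∃ g : Co A k, ‖g‖ ≤ ‖T‖ * ((k + 1) * ‖f‖) ∧
      ∀ x, td π (fun y => g y) x = T * π S * f x - T * f (fun i => σ (x i)) * S := by
  obtain ⟨L, hL, hLf⟩ := exists_homL σ S hσ1 hS1 k
  refine ⟨(mulL T).compContinuousMultilinearMap (L f), ?_, fun x => ?_⟩
  · refine (ContinuousLinearMap.norm_compContinuousMultilinearMap_le _ _).trans ?_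
    have h1 : ‖mulL T‖ ≤ ‖T‖ := ContinuousLinearMap.opNorm_mul_apply_le ℂ A T
    have h2 : ‖L f‖ ≤ (k + 1) * ‖f‖ := (L.le_opNorm f).trans (by gcongr)
    gcongr
  · have hg : (fun y => ((mulL T).compContinuousMultilinearMap (L f)) y)
        = fun y => T * hF σ S k (fun z => f z) y := by
      funext y
      change T * (L f y) = _
      rw [hLf]
    rw [hg, td, dpost_mulL]
    have h1 := hF_dpost (fun z => σ z) S hσ hS (fun z => f z) x
    have h2 : dpost (fun z => f z)
        = fun a : Fin (k + 2) → A => - (π (a 0) * f (fun i => a i.succ)) := by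
      funext a
      have := hf a
      rw [td] at this
      exact eq_neg_of_add_eq_zero_right this
    rw [h2] at h1
    have h3 : hF (fun z => σ z) S (k + 1)
          (fun a : Fin (k + 2) → A => - (π (a 0) * f (fun i => a i.succ))) x
        = - (π S * f x
          - π (σ (x 0)) * hF (fun z => σ z) S k (fun z => f z) (fun i => x i.succ)) := by
      rw [hF_neg, hF_succ, ← hF_mulL]
      rfl
    rw [h3] at h1
    have h4 : dpost (hF (fun z => σ z) S k (fun z => f z)) x
        = π S * f x - π (σ (x 0)) * hF (fun z => σ z) S k (fun z => f z) (fun i => x i.succ)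
          - f (fun i => σ (x i)) * S := by
      have h5 : dpost (hF (fun z => σ z) S k (fun z => f z)) x
          = - (- dpost (hF (fun z => σ z) S k (fun z => f z)) x - f (fun i => σ (x i)) * S)
            - f (fun i => σ (x i)) * S := by abel
      rw [h5, ← h1]
      abel
    rw [h4]
    simp only [mul_sub, ← mul_assoc]
    rw [hT]
    abel

/-- the differential commutes with a change of algebras -/
lemma td_conj {B : Type*} [NormedRing B] [NormedAlgebra ℂ B] {π : A → A} {π' : B → B}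
    (D : A →L[ℂ] B) (U : B → A)
    (hU : ∀ x y, U (x * y) = U x * U y) (hl : ∀ x y, D (π (U x) * y) = π' x * D y)
    (hr : ∀ x y, D (y * U x) = D y * x) {k : ℕ} (f : (Fin k → A) → A) (a : Fin (k + 1) → B) :
    td π' (fun x => D (f (fun i => U (x i)))) a = D (td π f (fun i => U (a i))) := by
  have hc : ∀ j : Fin k, (fun i => U (contract j a i)) = contract j (fun i => U (a i)) := by
    intro j
    funext i
    unfold contract
    split_ifs
    · rfl
    · exact hU _ _
    · rfl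
  rw [td_unfold, td_unfold]
  simp only [hc, map_add, map_sum, map_smul, hl, hr]

end Vale.Agent.N082
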