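import Vale.Agent.N082.Alg

/-!
# Twisted coefficients: properly infinite algebras
-/

attribute [local instance] Vale.Agent.P082.AlgFast.nr Vale.Agent.P082.AlgFast.na
  Vale.Agent.P082.AlgFast.sr Vale.Agent.P082.AlgFast.ng Vale.Agent.P082.AlgFast.sg
  Vale.Agent.P082.AlgFast.ns Vale.Agent.P082.AlgFast.ri Vale.Agent.P082.AlgFast.ag
  Vale.Agent.P082.AlgFast.am Vale.Agent.P082.AlgFast.mo Vale.Agent.P082.AlgFast.pm
  Vale.Agent.P082.AlgFast.us Vale.Agent.P082.AlgFast.ts Vale.Agent.P082.AlgFast.ets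
  Vale.Agent.P082.AlgFast.eng Vale.Agent.P082.AlgFast.esg Vale.Agent.P082.AlgFast.ens
  Vale.Agent.P082.AlgFast.eam Vale.Agent.P082.AlgFast.emo Vale.Agent.P082.AlgFast.nu
  Vale.Agent.P082.AlgFast.sag Vale.Agent.P082.AlgFast.agr Vale.Agent.P082.AlgFast.mon
  Vale.Agent.P082.AlgFast.srg

open scoped InnerProductSpace ComplexConjugate Topology

namespace Vale.Agent.N082

open Vale.Agent.P082 Vale.Agent.P082.CB Vale.Agent.P082.VN

universe u

variable {H : Type u} [NormedAddCommGroup H] [InnerProductSpace ℂ H] [CompleteSpace H]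
  {M : VonNeumannAlgebra H}

lemma coe_sum_apply {ι : Type*} (s : Finset ι) (x : ι → Alg M) (η : H) :
    ((∑ i ∈ s, x i : Alg M) : H →L[ℂ] H) η = ∑ i ∈ s, ((x i : Alg M) : H →L[ℂ] H) η := by
  rw [AddSubmonoidClass.coe_finsetSum, sum_apply]

/-- the column `π(S_l^*)` is bounded independently of its length -/
lemma norm_W_le {n : ℕ} {S : Fin n → Alg M}
    (hS : ∀ i j, star (S i) * S j = if i = j then 1 else 0) (π : Alg M →L[ℂ] Alg M)
    (hπ : ∀ x y, π (x * y) = π x * π y) : ‖∑ l, S l * π (star (S l))‖ ≤ ‖π‖ * ‖π‖ := by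
  classical
  have hT := shift_iso_coe (H := H) hS (id : Fin n → Fin n) Function.injective_id
  simp only [id] at hT
  refine shift_norm_alg_le (by positivity) (fun η => ?_)
  have h1 : ((∑ l, S l * π (star (S l)) : Alg M) : H →L[ℂ] H) η
      = ∑ l, ((S l : Alg M) : H →L[ℂ] H) (((π (star (S l)) : Alg M) : H →L[ℂ] H) η) := by
    rw [coe_sum_apply]
    rfl
  rw [h1, shift_parseval hT]
  obtain ⟨ε, hε, hle⟩ := exists_signs (Finset.univ : Finset (Fin n))
    (fun l => ((π (S l * star (S l)) : Alg M) : H →L[ℂ] H) η)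
  set u : Alg M := ∑ l, ε l • (S l * star (S l)) with hu
  have hun : ‖u‖ ≤ 1 := by
    refine shift_norm_alg_le zero_le_one (fun θ => ?_)
    have h2 : ((u : Alg M) : H →L[ℂ] H) θ = ∑ l, ((S l : Alg M) : H →L[ℂ] H)
        (ε l • ContinuousLinearMap.adjoint ((S l : Alg M) : H →L[ℂ] H) θ) := by
      rw [hu, coe_sum_apply]
      refine Finset.sum_congr rfl (fun l _ => ?_)
      rw [map_smul]
      rfl
    rw [h2, shift_parseval hT, one_mul]
    refine le_trans (le_of_eq (Finset.sum_congr rfl (fun l _ => ?_))) (shift_bessel hT θ)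
    rw [norm_smul]
    rcases hε l with h | h <;> simp [h]
  have h3 : ∑ l, ε l • ((π (S l * star (S l)) : Alg M) : H →L[ℂ] H) η
      = ((π u : Alg M) : H →L[ℂ] H) η := by
    rw [hu, map_sum, coe_sum_apply]
    refine Finset.sum_congr rfl (fun l _ => ?_)
    rw [map_smul]
    rfl
  rw [h3] at hle
  have h4 : ‖((π u : Alg M) : H →L[ℂ] H) η‖ ≤ ‖π‖ * ‖η‖ := by
    refine (ContinuousLinearMap.le_opNorm _ _).trans (mul_le_mul_of_nonneg_right ?_ (norm_nonneg _))
    have h5 : ‖π u‖ ≤ ‖π‖ * ‖u‖ := π.le_opNorm u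
    exact h5.trans (mul_le_of_le_one_right (norm_nonneg _) hun)
  have h6 : ∀ l, ‖((π (star (S l)) : Alg M) : H →L[ℂ] H) η‖ ^ 2
      ≤ ‖π‖ ^ 2 * ‖((π (S l * star (S l)) : Alg M) : H →L[ℂ] H) η‖ ^ 2 := by
    intro l
    have h7 : π (star (S l)) = π (star (S l)) * π (S l * star (S l)) := by
      rw [← hπ, ← mul_assoc, hS, if_pos rfl, one_mul]
    have h8 : ((π (star (S l)) : Alg M) : H →L[ℂ] H) η = ((π (star (S l)) : Alg M) : H →L[ℂ] H)
        (((π (S l * star (S l)) : Alg M) : H →L[ℂ] H) η) := by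
      conv_lhs => rw [h7]
      rfl
    rw [h8, ← mul_pow]
    refine pow_le_pow_left₀ (norm_nonneg _) ((ContinuousLinearMap.le_opNorm _ _).trans
      (mul_le_mul_of_nonneg_right ?_ (norm_nonneg _))) 2
    have h5 : ‖π (star (S l))‖ ≤ ‖π‖ * ‖star (S l)‖ := π.le_opNorm _
    exact h5.trans (mul_le_of_le_one_right (norm_nonneg _) (level_norm_star_isometry hS l))
  calc ∑ l, ‖((π (star (S l)) : Alg M) : H →L[ℂ] H) η‖ ^ 2
      ≤ ∑ l, ‖π‖ ^ 2 * ‖((π (S l * star (S l)) : Alg M) : H →L[ℂ] H) η‖ ^ 2 :=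
        Finset.sum_le_sum (fun l _ => h6 l)
    _ = ‖π‖ ^ 2 * ∑ l, ‖((π (S l * star (S l)) : Alg M) : H →L[ℂ] H) η‖ ^ 2 := by
        rw [Finset.mul_sum]
    _ ≤ ‖π‖ ^ 2 * (‖π‖ * ‖η‖) ^ 2 :=
        mul_le_mul_of_nonneg_left (hle.trans (pow_le_pow_left₀ (norm_nonneg _) h4 2))
          (sq_nonneg _)
    _ = (‖π‖ * ‖π‖ * ‖η‖) ^ 2 := by ring

/-- the first step: averaging over the matrix units -/
lemma tlevel_step {n : ℕ} [NeZero n] {S : Fin n → Alg M} {π : Alg M → Alg M}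
    (hS : ∀ i j, star (S i) * S j = if i = j then 1 else 0) (hsum : ∑ i, S i * star (S i) = 1)
    {k : ℕ} (f : Co (Alg M) (k + 1)) (hf : ∀ a, td π (fun x => f x) a = 0) :
    ∃ (f0 : Co (Alg M) (k + 1)) (g0 : Co (Alg M) k),
      (∀ x, f x = f0 x + td π (fun y => g0 y) x) ∧
      (∀ a, td π (fun x => f0 x) a = 0) ∧ ‖f0‖ ≤ 2 * ‖f‖ ∧ ‖g0‖ ≤ ‖f‖ ∧
      ∀ (x : Fin k → Alg M) (y : Alg M) (i j : Fin n),
        f0.curryRight x (y * (S i * star (S j))) = f0.curryRight x y * (S i * star (S j)) := by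
  have he : MatUnits (Alg M) n (fun i j => S i * star (S j)) := matUnits_cuntz hS hsum
  obtain ⟨e, hedef⟩ : ∃ e : Fin n → Fin n → Alg M, e = fun i j => S i * star (S j) := ⟨_, rfl⟩
  rw [← hedef] at he
  have ha : IsAvg (matAvg e) := matAvg_isAvg he
  have hna : ∀ φ, ‖matAvg e φ‖ ≤ ‖φ‖ := fun φ => norm_matAvg_le M he φ
  have hf0cur : ∀ x : Fin k → Alg M,
      (fav (matAvg e) f).curryRight x = tw (matAvg e) (f.curryRight x) := by
    intro x
    unfold fav
    rw [ContinuousMultilinearMap.curry_uncurryRight]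
    rfl
  refine ⟨fav (matAvg e) f, ((-1 : ℂ) ^ (k + 1)) • gav (matAvg e) f, ?_, tfav_cocycle ha f hf,
    ?_, ?_, ?_⟩
  · intro x
    rw [td_smul]
    exact td_gav ha f hf x
  · unfold fav
    rw [ContinuousMultilinearMap.uncurryRight_norm]
    refine ContinuousMultilinearMap.opNorm_le_bound (by (clear * -; positivity)) (fun x => ?_)
    show ‖tw (matAvg e) (f.curryRight x)‖ ≤ _
    refine (norm_tw_le M hna _).trans ?_
    have := level_curry_norm f x
    linarith only [this]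
  · rw [norm_smul, norm_pow, norm_neg, norm_one, one_pow, one_mul]
    refine ContinuousMultilinearMap.opNorm_le_bound (norm_nonneg _) (fun x => ?_)
    rw [gav_apply]
    exact (hna _).trans (level_curry_norm f x)
  · intro x y i j
    rw [hf0cur]
    have h := tw_matAvg_modular he (f.curryRight x) y i j
    have h2 : e i j = S i * star (S j) := by rw [hedef]
    rw [h2] at h
    exact h

lemma star_mul_W {n : ℕ} {S : Fin n → Alg M}
    (hS : ∀ i j, star (S i) * S j = if i = j then 1 else 0) (c : Fin n → Alg M) (l : Fin n) :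
    star (S l) * ∑ m, S m * c m = c l := by
  rw [Finset.mul_sum, Finset.sum_eq_single l]
  · rw [← mul_assoc, hS, if_pos rfl, one_mul]
  · intro b _ hb
    rw [← mul_assoc, hS, if_neg (Ne.symm hb), zero_mul]
  · intro h; exact absurd (Finset.mem_univ _) h

/-- the second step: shifting, the coboundary -/
lemma tlevel_shift_cob {n : ℕ} [NeZero n] {S : Fin n → Alg M}
    (hS : ∀ i j, star (S i) * S j = if i = j then 1 else 0) {D : Alg M →L[ℂ] Alg M}
    (hD : ∀ y, D y = (n : ℂ)⁻¹ • ∑ l, star (S l) * y * S l)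
    (π : Alg M →L[ℂ] Alg M) (hπ : ∀ x y, π (x * y) = π x * π y)
    {k : ℕ} (f0 : Co (Alg M) (k + 1))
    (hf0c : ∀ a, td π (fun x => f0 x) a = 0) {C : ℝ} (hC : ‖f0‖ ≤ C) :
    ∃ g : Co (Alg M) k, ‖g‖ ≤ ‖π‖ * ((k + 1) * C) ∧ ∀ x, td π (fun y => g y) x
        = π 1 * f0 x - D ((∑ l, S l * π (star (S l))) * f0 (fun i => cuntzEndo S (x i))) := by
  have hn0 : (n : ℂ) ≠ 0 := by exact_mod_cast NeZero.ne n
  have hnpos : (0 : ℝ) < n := by exact_mod_cast Nat.pos_of_ne_zero (NeZero.ne n)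
  have hninv : ‖(n : ℂ)⁻¹‖ = (n : ℝ)⁻¹ := by simp
  have hh : ∀ l : Fin n, ∃ g : Co (Alg M) k,
      ‖g‖ ≤ ‖π‖ * ((k + 1) * C) ∧ ∀ x, td π (fun y => g y) x
        = π 1 * f0 x - star (S l) * ((∑ l, S l * π (star (S l)))
          * f0 (fun i => cuntzEndo S (x i))) * S l := by
    intro l
    obtain ⟨g, hg1, hg2⟩ := thomotopy f0 hf0c (cuntzEndo S) (cuntzEndo_mul hS) (S l)
      (π (star (S l))) (fun x => level_endo_mul_iso hS x l)
      (fun x => by rw [← hπ, ← hπ, level_iso_mul_endo hS x l])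
      (norm_cuntzEndo_le hS) (level_norm_isometry hS l)
    refine ⟨g, hg1.trans ?_, fun x => ?_⟩
    · have h5 : ‖π (star (S l))‖ ≤ ‖π‖ * ‖star (S l)‖ := π.le_opNorm _
      have h6 : ‖π (star (S l))‖ ≤ ‖π‖ :=
        h5.trans (mul_le_of_le_one_right (norm_nonneg _) (level_norm_star_isometry hS l))
      exact mul_le_mul h6 (mul_le_mul_of_nonneg_left hC (by positivity)) (by positivity)
        (norm_nonneg _)
    · rw [hg2, ← hπ, hS, if_pos rfl, ← mul_assoc (star (S l)), star_mul_W hS]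
  choose gl hgln hgl using hh
  refine ⟨(n : ℂ)⁻¹ • ∑ l, gl l, ?_, ?_⟩
  · rw [norm_smul, hninv]
    have h3 : ‖∑ l, gl l‖ ≤ n * (‖π‖ * ((k + 1) * C)) := by
      refine (norm_sum_le _ _).trans ?_
      refine (Finset.sum_le_sum (fun l _ => hgln l)).trans ?_
      simp
    calc (n : ℝ)⁻¹ * ‖∑ l, gl l‖ ≤ (n : ℝ)⁻¹ * (n * (‖π‖ * ((k + 1) * C))) :=
          mul_le_mul_of_nonneg_left h3 (by positivity)
      _ = ‖π‖ * ((k + 1) * C) := by rw [← mul_assoc, inv_mul_cancel₀ hnpos.ne', one_mul]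
  · intro x
    rw [td_smul, td_sum, Finset.sum_congr rfl (fun l _ => hgl l x), Finset.sum_sub_distrib,
      smul_sub, ← hD, Finset.sum_const, Finset.card_univ, Fintype.card_fin,
      ← Nat.cast_smul_eq_nsmul ℂ, smul_smul, inv_mul_cancel₀ hn0, one_smul]

/-- for `n` isometries with orthogonal ranges summing up to one, every twisted cocycle is
cohomologous to one with an `n`-bounded last variable, with uniform bounds. -/
theorem exists_tlevel {n : ℕ} [NeZero n] {S : Fin n → Alg M}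
    (hS : ∀ i j, star (S i) * S j = if i = j then 1 else 0) (hsum : ∑ i, S i * star (S i) = 1)
    (π : Alg M →L[ℂ] Alg M) (hπ : ∀ x y, π (x * y) = π x * π y)
    {k : ℕ} (f : Co (Alg M) (k + 1)) (hf : ∀ a, td π (fun x => f x) a = 0) :
    ∃ (F : Co (Alg M) (k + 1)) (g : Co (Alg M) k),
      (∀ x, f x = F x + td π (fun y => g y) x) ∧
      (∀ a, td π (fun x => F x) a = 0) ∧ ‖F‖ ≤ ‖π‖ * ‖π‖ * (2 * ‖f‖) ∧
      ‖g‖ ≤ ‖f‖ + (‖π‖ + 1) * ((k + 1) * (2 * ‖f‖)) ∧
      ∀ x : Fin k → Alg M,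
        LevelBound M n (F.curryRight x) ((‖π‖ * ‖π‖ * (2 * ‖f‖) * ∏ i, ‖x i‖) ^ 2) := by
  obtain ⟨f0, g0, hf0, hf0c, hf0n, hg0n, hmod⟩ := tlevel_step hS hsum f hf
  obtain ⟨D, hD, hDn, hDl, hDr⟩ := level_exists_D hS
  obtain ⟨g1, hg1n, hg1⟩ := tlevel_shift_cob hS hD π hπ f0 hf0c hf0n
  obtain ⟨g2, hg2n, hg2⟩ := thomotopy f0 hf0c (ContinuousLinearMap.id ℂ (Alg M))
    (fun _ _ => rfl) 1 1 (fun x => by rw [one_mul]; exact mul_one _)
    (fun x => by rw [one_mul]; exact (mul_one _).symm) ContinuousLinearMap.norm_id_le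
    (norm_one_le_alg M)
  have hWn := norm_W_le hS π hπ
  obtain ⟨W, hW⟩ : ∃ W : Alg M, W = ∑ l, S l * π (star (S l)) := ⟨_, rfl⟩
  rw [← hW] at hg1 hWn
  have hWπ : ∀ x, W * π (cuntzEndo S x) = cuntzEndo S (π x) * W := by
    intro x
    rw [hW, Finset.sum_mul, Finset.mul_sum]
    refine Finset.sum_congr rfl (fun l _ => ?_)
    rw [mul_assoc, ← hπ, level_iso_mul_endo hS, hπ, ← mul_assoc (cuntzEndo S (π x)),
      level_endo_mul_iso hS, mul_assoc]
  have hσx : ∀ x : Alg M, ‖cuntzEndo S x‖ ≤ ‖x‖ := by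
    intro x
    exact ((cuntzEndo S).le_opNorm x).trans
      (mul_le_of_le_one_left (norm_nonneg _) (norm_cuntzEndo_le hS))
  obtain ⟨f1, hf1, hf1n⟩ : ∃ f1 : Co (Alg M) (k + 1), (∀ x, f1 x = W * f0 x) ∧
      ‖f1‖ ≤ ‖π‖ * ‖π‖ * (2 * ‖f‖) := by
    refine ⟨(mulL W).compContinuousMultilinearMap f0, fun _ => rfl, ?_⟩
    refine (ContinuousLinearMap.norm_compContinuousMultilinearMap_le _ _).trans ?_
    have h1 : ‖mulL W‖ ≤ ‖W‖ := ContinuousLinearMap.opNorm_mul_apply_le ℂ (Alg M) W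
    exact mul_le_mul (h1.trans hWn) hf0n (norm_nonneg _) (by positivity)
  have hmod1 : ∀ (x : Fin k → Alg M) (y : Alg M) (i j : Fin n),
      f1.curryRight x (y * (S i * star (S j))) = f1.curryRight x y * (S i * star (S j)) := by
    intro x y i j
    have h1 : ∀ y, f1.curryRight x y = W * f0.curryRight x y := fun y => hf1 _
    rw [h1, h1, hmod, mul_assoc]
  obtain ⟨F, hF⟩ : ∃ F : Co (Alg M) (k + 1),
      ∀ x, F x = D (f1 (fun i => cuntzEndo S (x i))) :=
    ⟨D.compContinuousMultilinearMap (f1.compContinuousLinearMap (fun _ => cuntzEndo S)),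
      fun _ => rfl⟩
  refine ⟨F, g0 + g1 + (-1 : ℂ) • g2, ?_, ?_, ?_, ?_, level_shift_bound hS hD f1 hf1n hmod1 F hF⟩
  · intro x
    rw [td_add_smul, td_add, hg1, hg2, hF, hf1, hf0 x]
    simp only [one_mul, mul_one, ContinuousLinearMap.id_apply, neg_one_smul]
    abel
  · intro a
    have h1 : (fun x => F x) = fun x => (D.comp (mulL W)) (f0 (fun i => cuntzEndo S (x i))) := by
      funext x
      rw [hF, hf1]
      rfl
    rw [h1, td_conj (π := π) (π' := π) (D.comp (mulL W)) (cuntzEndo S) (cuntzEndo_mul hS)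
      (fun x y => by
        show D (W * (π (cuntzEndo S x) * y)) = π x * D (W * y)
        rw [← mul_assoc, hWπ, mul_assoc, hDl])
      (fun x y => by
        show D (W * (y * cuntzEndo S x)) = D (W * y) * x
        rw [← mul_assoc, hDr]) (fun x => f0 x) a, hf0c, map_zero]
  · refine (ContinuousMultilinearMap.opNorm_le_bound (norm_nonneg f1) (fun x => ?_)).trans hf1n
    rw [hF]
    refine (hDn _).trans ((f1.le_opNorm _).trans ?_)
    gcongr
    exact hσx _
  · have h1 : ‖(-1 : ℂ) • g2‖ ≤ (k + 1) * (2 * ‖f‖) := by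
      rw [norm_smul, norm_neg, norm_one, one_mul]
      refine hg2n.trans ?_
      have h2 := norm_one_le_alg M
      calc ‖(1 : Alg M)‖ * ((k + 1) * ‖f0‖) ≤ 1 * ((k + 1) * (2 * ‖f‖)) :=
            mul_le_mul h2 (mul_le_mul_of_nonneg_left hf0n (by positivity)) (by positivity)
              zero_le_one
        _ = _ := one_mul _
    refine (norm_add_le _ _).trans ((add_le_add ((norm_add_le _ _).trans
      (add_le_add hg0n hg1n)) h1).trans (le_of_eq ?_))
    ring

/-- the twisted differential is continuous for pointwise weak limits -/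
theorem limitWT_td {I : Type*} {U : Ultrafilter I} (π : Alg M → Alg M) {k : ℕ}
    {g : I → (Fin k → Alg M) → Alg M}
    {g' : (Fin k → Alg M) → Alg M} (h : ∀ x, LimitWT U (fun i => g i x) (g' x))
    (a : Fin (k + 1) → Alg M) :
    LimitWT U (fun i => td π (g i) a) (td π g' a) := by
  unfold td dpost
  refine (LimitWT.mul_left _ (h _)).add ((LimitWT.sum _ fun j _ =>
    LimitWT.mul_left _ (h _)).add (LimitWT.mul_left _ (LimitWT.mul_right _ (h _))))

/-- a twisted cocycle whose last variable is completely bounded is a coboundary -/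
theorem tcob_of_cb {π : Alg M → Alg M} {k : ℕ} (f : Co (Alg M) (k + 1))
    (hf : ∀ a, td π (fun x => f x) a = 0) {C : ℝ} (hC : 0 ≤ C)
    (hcb : ∀ x : Fin k → Alg M, LBound M (f.curryRight x) 1 1 ((C * ∏ i, ‖x i‖) ^ 2)) :
    TCob π (fun x => f x) := by
  obtain ⟨a, h1, h2, h3, h4⟩ := exists_cb_functional M
  have hcb' : ∀ x : Fin k → Alg M, f.curryRight x ∈ cbMaps M := fun x =>
    ⟨(C * ∏ i, ‖x i‖) ^ 2, sq_nonneg _, hcb x⟩
  refine (tcob_of_functional (cbMaps M) (fun c ψ h => cb_mulL c h)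
    (fun b ψ h => cb_comp_mulL b h) (cb_id M) a 1 h2 h3 h4 f hf hcb' (C := C) fun x => ?_).congr
    (fun x => mul_one _)
  have h5 := h1 ⟨f.curryRight x, hcb' x⟩ ((C * ∏ i, ‖x i‖) ^ 2) (sq_nonneg _) (hcb x)
  rw [Real.sqrt_sq (mul_nonneg hC (Finset.prod_nonneg fun i _ => norm_nonneg _))] at h5
  exact h5

/-- properly infinite algebras -/
theorem tvanishing_halvable (M : VonNeumannAlgebra H) (h : Halvable M (1 : H →L[ℂ] H))
    (π : Alg M →L[ℂ] Alg M) (hπ : ∀ x y, π (x * y) = π x * π y) {k : ℕ}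
    (f : Co (Alg M) (k + 1)) (hf : ∀ a, td π (fun x => f x) a = 0) : TCob π (fun x => f x) := by
  have hlev : ∀ m : ℕ, ∃ (F : Co (Alg M) (k + 1)) (g : Co (Alg M) k),
      (∀ x, f x = F x + td π (fun y => g y) x) ∧
      (∀ a, td π (fun x => F x) a = 0) ∧ ‖F‖ ≤ ‖π‖ * ‖π‖ * (2 * ‖f‖) ∧
      ‖g‖ ≤ ‖f‖ + (‖π‖ + 1) * ((k + 1) * (2 * ‖f‖)) ∧
      ∀ x : Fin k → Alg M,
        LevelBound M (2 ^ m) (F.curryRight x) ((‖π‖ * ‖π‖ * (2 * ‖f‖) * ∏ i, ‖x i‖) ^ 2) := by
    intro m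
    obtain ⟨S, hS, hsum⟩ := exists_isometries h m
    exact exists_tlevel hS hsum π hπ f hf
  choose F g h1 h2 h3 h4 h5 using hlev
  set U : Ultrafilter ℕ := Filter.hyperfilter ℕ with hU
  obtain ⟨F', -, hF'⟩ := exists_limit_cmm M U F _ h3
  obtain ⟨g', -, hg'⟩ := exists_limit_cmm M U g _ h4
  have l1 : ∀ x, LimitWT U (fun i => F i x) (F' x) := fun x β α => hF' x β α
  have l2 : ∀ x, LimitWT U (fun i => g i x) (g' x) := fun x β α => hg' x β α
  have e1 : ∀ x, f x = F' x + td π (fun y => g' y) x := by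
    intro x
    have h6 := (l1 x).add (limitWT_td π (g := fun i y => g i y) (g' := fun y => g' y) l2 x)
    refine limit_unique (U := U) (y := fun _ : ℕ => f x) (LimitWT.const _) ?_
    intro β α
    refine (h6 β α).congr fun i => ?_
    rw [h1 i x]
  have e2 : ∀ a, td π (fun x => F' x) a = 0 := by
    intro a
    have h6 := limitWT_td π (g := fun i y => F i y) (g' := fun y => F' y) l1 a
    refine limit_unique (U := U) (y := fun _ : ℕ => (0 : Alg M)) ?_ (LimitWT.const _)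
    intro β α
    refine (h6 β α).congr fun i => ?_
    exact congrArg (fun z : Alg M => ⟪β, (z : H →L[ℂ] H) α⟫_ℂ) (h2 i a)
  have hcb : ∀ x : Fin k → Alg M, LBound M (F'.curryRight x) 1 1
      ((‖π‖ * ‖π‖ * (2 * ‖f‖) * ∏ i, ‖x i‖) ^ 2) := by
    intro x ι κ _ _ Y hY _ ζ _
    refine sum_sq_le_of_weak (U : Filter ℕ) _
      (fun m i => ∑ j, (((F m).curryRight x (Y i j) : Alg M) : H →L[ℂ] H) (ζ j)) _ ?_ ?_
    · have hev : ∀ᶠ m in Filter.atTop, max (Fintype.card ι) (Fintype.card κ) ≤ 2 ^ m := by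
        filter_upwards [Filter.eventually_ge_atTop (max (Fintype.card ι) (Fintype.card κ))]
          with m hm
        exact hm.trans Nat.lt_two_pow_self.le
      have hev' : ∀ᶠ m in (U : Filter ℕ),
          max (Fintype.card ι) (Fintype.card κ) ≤ 2 ^ m :=
        Nat.hyperfilter_le_atTop hev
      filter_upwards [hev'] with m hm
      exact h5 m x ι κ ((le_max_left _ _).trans hm) ((le_max_right _ _).trans hm) Y hY ζ
    · intro β i
      simp only [inner_sum]
      refine tendsto_finsetSum _ fun j _ => ?_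
      exact hF' (app x (Y i j)) β (ζ j)
  have h7 := tcob_of_cb F' e2 (by positivity) hcb
  exact (h7.add ⟨g', fun _ => rfl⟩).congr fun x => (e1 x).symm

end Vale.Agent.N082
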