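import Vale.Agent.N082.Main

/-!
# A bimodule retraction makes the algebra an injective normed module
-/

namespace Vale.Agent.N082

open Vale.Agent.P082 MulOpposite

/-- extension of module maps along module maps with a bounded linear left inverse -/
theorem extend_of_retraction {A : Type*} [NormedRing A] [NormedAlgebra ℂ A]
    (a : (A →L[ℂ] A) →L[ℂ] A)
    (h2 : ∀ (c : A) (ψ : A →L[ℂ] A), a ((mulL c).comp ψ) = c * a ψ)
    (h3 : a (ContinuousLinearMap.id ℂ A) = 1)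
    (h4 : ∀ (ψ : A →L[ℂ] A) (b : A), a (ψ.comp (mulL b)) = a ψ * b)
    {X Y : Type*} [NormedAddCommGroup X] [NormedSpace ℂ X] [Module Aᵐᵒᵖ X]
    [IsScalarTower ℂ Aᵐᵒᵖ X] [NormedAddCommGroup Y] [NormedSpace ℂ Y] [Module Aᵐᵒᵖ Y]
    [IsScalarTower ℂ Aᵐᵒᵖ Y] [IsBoundedSMul Aᵐᵒᵖ Y]
    (i : X →L[Aᵐᵒᵖ] Y) (r : Y →L[ℂ] X) (hr : ∀ x, r (i x) = x) (θ : X →L[Aᵐᵒᵖ] A) :
    ∃ Θ : Y →L[Aᵐᵒᵖ] A, ∀ x, Θ (i x) = θ x := by
  have hθ : ∀ (c : ℂ) (x : X), θ (c • x) = c • θ x := by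
    intro c x
    have h1 : c • x = (c • (1 : Aᵐᵒᵖ)) • x := by rw [smul_assoc, one_smul]
    rw [h1, map_smul, smul_assoc, one_smul]
  let θ' : X →L[ℂ] A :=
    { toFun := θ, map_add' := θ.map_add, map_smul' := hθ, cont := θ.continuous }
  have hθ' : ∀ x, θ' x = θ x := fun _ => rfl
  let T : Y →L[ℂ] A := θ'.comp r
  have hsm : ∀ (c : ℂ) (b : Aᵐᵒᵖ) (y : Y), b • c • y = c • b • y := by
    intro c b y
    have h1 : ∀ y : Y, c • y = (c • (1 : Aᵐᵒᵖ)) • y := fun y => by rw [smul_assoc, one_smul]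
    rw [h1 y, h1 (b • y), smul_smul, smul_smul, smul_mul_assoc, mul_smul_comm, one_mul, mul_one]
  let act : Y →L[ℂ] A →L[ℂ] Y := LinearMap.mkContinuous₂
    (LinearMap.mk₂ ℂ (fun (y : Y) (b : A) => op b • y)
      (fun y y' b => smul_add _ _ _) (fun c y b => hsm c _ y)
      (fun y b b' => by rw [op_add, add_smul])
      (fun c y b => by rw [op_smul, smul_assoc])) 1
    (fun y b => by
      rw [one_mul, mul_comm]
      exact (norm_smul_le (op b) y).trans (le_of_eq (by rw [norm_op])))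
  have hact : ∀ y b, act y b = op b • y := fun _ _ => rfl
  let Φ : Y →L[ℂ] A := a.comp (((ContinuousLinearMap.compL ℂ A Y A) T).comp act)
  have hΦ : ∀ y, Φ y = a (T.comp (act y)) := fun _ => rfl
  refine ⟨{ toFun := Φ, map_add' := Φ.map_add, map_smul' := fun c y => ?_, cont := Φ.continuous },
    fun x => ?_⟩
  · show Φ (c • y) = Φ y * unop c
    rw [hΦ, hΦ, ← h4]
    congr 1
    ext b
    show T (act (c • y) b) = T (act y (unop c * b))
    rw [hact, hact, op_mul, op_unop, mul_smul]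
  · show Φ (i x) = θ x
    have h5 : T.comp (act (i x)) = (mulL (θ x)).comp (ContinuousLinearMap.id ℂ A) := by
      ext b
      show θ' (r (act (i x) b)) = θ x * b
      rw [hact, ← map_smul, hr, hθ', map_smul]
      rfl
    rw [hΦ, h5, h2, h3, mul_one]

end Vale.Agent.N082
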