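import Vale.Agent.N082.Inf

/-!
# Twisted coefficients: the finite part, the general case, injectivity of finite algebras
-/

attribute [local instance] Vale.Agent.P082.AlgFast.nr Vale.Agent.P082.AlgFast.na
  Vale.Agent.P082.AlgFast.sr Vale.Agent.P082.AlgFast.ng Vale.Agent.P082.AlgFast.sg
  Vale.Agent.P082.AlgFast.ns Vale.Agent.P082.AlgFast.ri Vale.Agent.P082.AlgFast.ag
  Vale.Agent.P082.AlgFast.am Vale.Agent.P082.AlgFast.mo Vale.Agent.P082.AlgFast.pm
  Vale.Agent.P082.AlgFast.us Vale.Agent.P082.AlgFast.ts Vale.Agent.P082.AlgFast.ets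
  Vale.Agent.P082.AlgFast.eng Vale.Agent.P082.AlgFast.esg Vale.Agent.P082.AlgFast.ens
  Vale.Agent.P082.AlgFast.eam Vale.Agent.P082.AlgFast.emo Vale.Agent.P082.AlgFast.nu
  Vale.Agent.P082.AlgFast.sag Vale.Agent.P082.AlgFast.agr Vale.Agent.P082.AlgFast.mon
  Vale.Agent.P082.AlgFast.srg

open scoped InnerProductSpace ComplexConjugate Topology

namespace Vale.Agent.N082

open Vale.Agent.P082 Vale.Agent.P082.CB Vale.Agent.P082.VN

universe u

variable {H : Type u} [NormedAddCommGroup H] [InnerProductSpace ℂ H] [CompleteSpace H]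
  {M : VonNeumannAlgebra H}

/-- the finite part of `M` carries one bimodule functional on ALL bounded maps -/
theorem exists_fin_functional {zf : H →L[ℂ] H} (hz : IsCPr M zf) (hfin : FinPr M zf)
    (hsep : ∀ x ∈ M, (∀ ξ : ℕ → H, TrVec M ξ → ∀ n, x (ξ n) = 0) → x * zf = 0) :
    ∃ A : (Alg M →L[ℂ] Alg M) →L[ℂ] Alg M,
      (∀ (c : Alg M) (ψ : Alg M →L[ℂ] Alg M), A ((mulL c).comp ψ) = c * A ψ) ∧
      A (ContinuousLinearMap.id ℂ (Alg M)) = ⟨zf, hz.mem⟩ ∧
      ∀ (ψ : Alg M →L[ℂ] Alg M) (b : Alg M), A (ψ.comp (mulL b)) = A ψ * b := by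
  obtain ⟨az, hazl, hazo, -, a, ha⟩ := exists_fin_part hz hfin hsep
  obtain ⟨Z, hZ⟩ : ∃ Z : Alg M, Z = ⟨zf, hz.mem⟩ := ⟨_, rfl⟩
  have hZc : ∀ y : Alg M, Z * y = y * Z := fun y => by
    rw [hZ]; exact Subtype.ext (hz.comm _ y.2)
  have hZZ : Z * Z = Z := by rw [hZ]; exact Subtype.ext hz.idem
  have hazo' : az (ContinuousLinearMap.id ℂ (Alg M)) = Z := by rw [hZ]; exact Subtype.ext hazo
  have hao : a (ContinuousLinearMap.id ℂ (Alg M)) = Z := by rw [hZ]; exact Subtype.ext ha.one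
  have haL : ∀ c : Alg M, a (mulL c) = c * Z := by
    intro c
    have := ha.left c (ContinuousLinearMap.id ℂ (Alg M))
    rwa [ContinuousLinearMap.comp_id, hao] at this
  have hinv : ∀ (ψ : Alg M →L[ℂ] Alg M) (b : Alg M),
      a ((tw az ψ).comp (mulL b)) = a (tw az ψ) * b := by
    intro ψ b
    have h := ha.inv (tw az ψ) ⟨ψ, fun _ => rfl⟩ b
    rwa [tw_apply, sub_eq_zero] at h
  have e1 : ∀ c d : Alg M, (mulL c).comp (mulL d) = mulL (c * d) := by
    intro c d; ext y : 1; exact (mul_assoc c d y).symm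
  refine ⟨a.comp (tw az) + ((ContinuousLinearMap.mul ℂ (Alg M)).flip Z).comp az, ?_, ?_, ?_⟩
  · intro c ψ
    show a (tw az ((mulL c).comp ψ)) + az ((mulL c).comp ψ) * Z = c * (a (tw az ψ) + az ψ * Z)
    have h1 : tw az ((mulL c).comp ψ) = (mulL c).comp (tw az ψ) := by
      ext b : 1
      show tw az ((mulL c).comp ψ) b = c * tw az ψ b
      rw [tw_apply, tw_apply, ContinuousLinearMap.comp_assoc, hazl, hazl, mul_sub, mul_assoc]
    rw [h1, ha.left, hazl, mul_add, mul_assoc]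
  · rw [← hZ]
    show a (tw az (ContinuousLinearMap.id ℂ (Alg M)))
      + az (ContinuousLinearMap.id ℂ (Alg M)) * Z = Z
    have h1 : tw az (ContinuousLinearMap.id ℂ (Alg M)) = 0 := by
      ext b : 1
      rw [tw_apply, ContinuousLinearMap.id_comp]
      have h2 := hazl b (ContinuousLinearMap.id ℂ (Alg M))
      rw [ContinuousLinearMap.comp_id] at h2
      rw [h2, hazo', hZc, sub_self]
      rfl
    rw [h1, map_zero, zero_add, hazo', hZZ]
  · intro ψ b
    show a (tw az (ψ.comp (mulL b))) + az (ψ.comp (mulL b)) * Z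
      = (a (tw az ψ) + az ψ * Z) * b
    have h1 : tw az (ψ.comp (mulL b)) = (tw az ψ).comp (mulL b) - mulL (tw az ψ b) := by
      ext c : 1
      show tw az (ψ.comp (mulL b)) c = tw az ψ (b * c) - tw az ψ b * c
      rw [tw_apply, tw_apply, tw_apply, ContinuousLinearMap.comp_assoc, e1, sub_mul, mul_assoc]
      abel
    rw [h1, map_sub, hinv, haL, tw_apply, add_mul, sub_mul, mul_assoc (az ψ) Z b, hZc b,
      mul_assoc (az ψ) b Z]
    abel

lemma norm_le_one_of_cpr {z : H →L[ℂ] H} (hz : IsCPr M z) : ‖(⟨z, hz.mem⟩ : Alg M)‖ ≤ 1 :=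
  loc_norm_le_one (r := z) hz.idem hz.sa

/-- the properly infinite part -/
theorem tcob_inf_part {z : H →L[ℂ] H} (hz : IsCPr M z) (hh : Halvable M z)
    (π : Alg M →L[ℂ] Alg M) (hπ : ∀ x y, π (x * y) = π x * π y) {k : ℕ}
    (f : Co (Alg M) (k + 1)) (hf : ∀ a, td π (fun x => f x) a = 0) :
    TCob π (fun x => f x * (⟨z, hz.mem⟩ : Alg M)) := by
  obtain ⟨K, _, _, _, P, ι, up, down, hc⟩ := exists_corner hz
  have hn := norm_le_one_of_cpr hz
  obtain ⟨Z, hZdef⟩ : ∃ Z : Alg M, Z = (⟨z, hz.mem⟩ : Alg M) := ⟨_, rfl⟩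
  rw [← hZdef] at hn ⊢
  have hZc : (Z : H →L[ℂ] H) = z := by rw [hZdef]
  have hcomm : ∀ x : Alg M, Z * x = x * Z := fun y => by
    rw [hZdef]; exact Subtype.ext (hz.comm _ y.2)
  have hid : Z * Z = Z := by rw [hZdef]; exact Subtype.ext hz.idem
  have hσn : ‖mulL Z‖ ≤ 1 := (ContinuousLinearMap.opNorm_mul_apply_le ℂ (Alg M) Z).trans hn
  -- `π(Z) f - f Z` is a coboundary
  obtain ⟨g1, -, hg1⟩ := thomotopy f hf (ContinuousLinearMap.id ℂ (Alg M))
    (fun _ _ => rfl) Z 1 (fun x => (hcomm x).symm)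
    (fun x => by rw [one_mul]; exact (mul_one _).symm) ContinuousLinearMap.norm_id_le hn
  have c1 : TCob π (fun x => π Z * f x - f x * Z) :=
    ⟨g1, fun x => by rw [hg1]; simp only [one_mul, ContinuousLinearMap.id_apply]⟩
  -- `π(Z) f - π(Z) f(Z ·) Z` is a coboundary
  obtain ⟨g2, -, hg2⟩ := thomotopy f hf (mulL Z)
    (fun x y => by
      show Z * (x * y) = Z * x * (Z * y)
      rw [mul_assoc, ← mul_assoc x Z y, ← hcomm x, mul_assoc, ← mul_assoc Z Z, hid])
    Z (π Z)
    (fun x => by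
      show Z * x * Z = Z * x
      rw [mul_assoc, ← hcomm x, ← mul_assoc, hid])
    (fun x => by
      show π Z * π (Z * x) = π x * π Z
      rw [← hπ, ← hπ, ← mul_assoc, hid, hcomm])
    hσn hn
  have c2 : TCob π (fun x => π Z * f x - π Z * f (fun i => Z * x i) * Z) :=
    ⟨g2, fun x => by rw [hg2, ← hπ, hid]; rfl⟩
  -- the corner
  have hud : ∀ x : Alg M, up (down x) = Z * x := by
    intro x
    apply Subtype.ext
    rw [hc.up_down]
    show z * (x : H →L[ℂ] H) = (Z : H →L[ℂ] H) * (x : H →L[ℂ] H)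
    rw [hZc]
  have hZup : ∀ y : Alg P, Z * up y = up y := by
    intro y
    apply Subtype.ext
    show (Z : H →L[ℂ] H) * ((up y : Alg M) : H →L[ℂ] H) = ((up y : Alg M) : H →L[ℂ] H)
    rw [hZc]
    exact hc.up_supp y
  have hul : ∀ (x : Alg M) (y : Alg P), up (down x * y) = x * up y := by
    intro x y
    rw [hc.up_mul, hud, hcomm, mul_assoc, hZup]
  have hur : ∀ (x : Alg M) (y : Alg P), up (y * down x) = up y * x := by
    intro x y
    rw [hc.up_mul, hud, ← mul_assoc, ← hcomm (up y), hZup]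
  have hdr : ∀ (x : Alg P) (y : Alg M), down (y * up x) = down y * x := by
    intro x y
    rw [hc.down_mul, hc.down_up]
  let π' : Alg P →L[ℂ] Alg P := down.comp (π.comp up)
  have hπ'a : ∀ x, π' x = down (π (up x)) := fun _ => rfl
  have hπ' : ∀ x y, π' (x * y) = π' x * π' y := by
    intro x y
    rw [hπ'a, hπ'a, hπ'a, hc.up_mul, hπ, hc.down_mul]
  let f₁ : Co (Alg P) (k + 1) :=
    down.compContinuousMultilinearMap (f.compContinuousLinearMap (fun _ => up))
  have hf₁a : ∀ a, f₁ a = down (f (fun i => up (a i))) := fun a => rfl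
  have hf₁ : ∀ a, td π' (fun x => f₁ x) a = 0 := by
    intro a
    simp only [hf₁a]
    rw [td_conj (π := π) (π' := π') down up hc.up_mul
      (fun x y => by rw [hc.down_mul, hπ'a]) hdr (fun x => f x) a, hf, map_zero]
  obtain ⟨g₁, hg₁⟩ := tvanishing_halvable P (hc.halvable hh) π' hπ' f₁ hf₁
  let D : Alg P →L[ℂ] Alg M := (mulL (π Z)).comp up
  have hDa : ∀ y, D y = π Z * up y := fun _ => rfl
  let g₂ : Co (Alg M) k :=
    D.compContinuousMultilinearMap (g₁.compContinuousLinearMap (fun _ => down))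
  have hg₂a : ∀ a, g₂ a = D (g₁ (fun i => down (a i))) := fun a => rfl
  have c3 : TCob π (fun x => π Z * f (fun i => Z * x i) * Z) := by
    refine ⟨g₂, fun x => ?_⟩
    simp only [hg₂a]
    rw [td_conj (π := π') (π' := π) D down hc.down_mul
      (fun x y => by
        rw [hDa, hDa, hπ'a, hul, hud, ← mul_assoc, ← mul_assoc, ← hπ, ← hπ, ← mul_assoc, hid,
          hcomm])
      (fun x y => by rw [hDa, hDa, hur, mul_assoc]) (fun x => g₁ x) x, hg₁]
    beta_reduce
    rw [hf₁a, hDa, hud]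
    simp only [hud]
    rw [hcomm, mul_assoc]
  exact ((c2.add c3).sub c1).congr fun x => by abel

/-- vanishing for the left twisted coefficients -/
theorem tvanishing (M : VonNeumannAlgebra H) (π : Alg M →L[ℂ] Alg M)
    (hπ : ∀ x y, π (x * y) = π x * π y) {k : ℕ}
    (f : Co (Alg M) (k + 1)) (hf : ∀ a, td π (fun x => f x) a = 0) : TCob π (fun x => f x) := by
  obtain ⟨zf, hz, hhalf, hfin, -, hsep⟩ := exists_decomposition M
  obtain ⟨A, h2, h3, h4⟩ := exists_fin_functional hz hfin hsep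
  have c1 := tcob_of_total A _ h2 h3 h4 f hf
  have c2 := tcob_inf_part hz.one_sub hhalf π hπ f hf
  refine (c1.add c2).congr fun x => ?_
  have e : (⟨zf, hz.mem⟩ : Alg M) + ⟨1 - zf, hz.one_sub.mem⟩ = 1 := by
    apply Subtype.ext
    show zf + (1 - zf) = 1
    abel
  rw [← mul_add, e, mul_one]

/-- vanishing for the coefficients `a · x · b = π(a) x β(b)` -/
theorem twisted_vanishing (M : VonNeumannAlgebra H) (π : Alg M →L[ℂ] Alg M)
    (hπ : ∀ x y, π (x * y) = π x * π y) (β : Alg M ≃L[ℂ] Alg M)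
    (hβ : ∀ x y, β (x * y) = β x * β y) {k : ℕ}
    (f : Co (Alg M) (k + 1)) (hf : ∀ a, twisted π β (fun x => f x) a = 0) :
    ∃ g : Co (Alg M) k, ∀ a, twisted π β (fun x => g x) a = f a := by
  have hβ' : ∀ x y, β.symm (x * y) = β.symm x * β.symm y := by
    intro x y
    apply β.injective
    rw [hβ, β.apply_symm_apply, β.apply_symm_apply, β.apply_symm_apply]
  let π' : Alg M →L[ℂ] Alg M := (β.symm : Alg M →L[ℂ] Alg M).comp π
  have hπ'a : ∀ x, π' x = β.symm (π x) := fun _ => rfl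
  have key : ∀ {m : ℕ} (g : (Fin m → Alg M) → Alg M) (a : Fin (m + 1) → Alg M),
      β (td π' g a) = twisted π β (fun x => β (g x)) a := by
    intro m g a
    rw [td_unfold, twisted]
    simp only [neg_one_pow_mul, map_add, map_sum, map_smul, hβ, hπ'a, β.apply_symm_apply]
  let f' : Co (Alg M) (k + 1) := (β.symm : Alg M →L[ℂ] Alg M).compContinuousMultilinearMap f
  have hf'a : ∀ x, β (f' x) = f x := fun x => β.apply_symm_apply (f x)
  have hf' : ∀ a, td π' (fun x => f' x) a = 0 := by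
    intro a
    apply β.injective
    rw [key, map_zero]
    simp only [hf'a]
    exact hf a
  obtain ⟨g, hg⟩ := tvanishing M π' (fun x y => by rw [hπ'a, hπ'a, hπ'a, hπ, hβ']) f' hf'
  refine ⟨(β : Alg M →L[ℂ] Alg M).compContinuousMultilinearMap g, fun a => ?_⟩
  have h1 := key (fun x => g x) a
  rw [hg] at h1
  beta_reduce at h1
  rw [hf'a] at h1
  exact h1.symm

/-- a finite von Neumann algebra is a bimodule retract of the space of its bounded maps -/
theorem exists_retraction (M : VonNeumannAlgebra H)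
    (hM : ∀ v ∈ M, star v * v = 1 → v * star v = 1) :
    ∃ A : (Alg M →L[ℂ] Alg M) →L[ℂ] Alg M,
      (∀ (c : Alg M) (ψ : Alg M →L[ℂ] Alg M), A ((mulL c).comp ψ) = c * A ψ) ∧
      A (ContinuousLinearMap.id ℂ (Alg M)) = 1 ∧
      ∀ (ψ : Alg M →L[ℂ] Alg M) (b : Alg M), A (ψ.comp (mulL b)) = A ψ * b := by
  obtain ⟨zf, hz, hhalf, hfin, -, hsep⟩ := exists_decomposition M
  have h1 : zf = 1 := by
    obtain ⟨v₁, h₁, v₂, h₂, e₁, e₂, e₃⟩ := hhalf
    have hc := hz.one_sub
    have a1 : v₁ * (1 - zf) = v₁ := sb_absorb e₁ hc.toIsPr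
    have a2 : v₁ * zf = 0 := by
      have := a1
      rw [mul_sub, mul_one, sub_eq_self] at this
      exact this
    have a3 : zf * v₁ = 0 := by rw [hz.comm _ h₁, a2]
    have a4 : star v₁ * zf = 0 := by
      have := congrArg star a3
      rwa [star_mul, hz.sa, star_zero] at this
    have a5 : zf * star v₁ = 0 := by rw [hz.comm _ (star_mem h₁), a4]
    have b1 : star (v₁ + zf) * (v₁ + zf) = 1 := by
      rw [star_add, hz.sa, add_mul, mul_add, mul_add, e₁, a4, a3, hz.idem]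
      abel
    have b2 := hM _ (add_mem h₁ hz.mem) b1
    rw [star_add, hz.sa, add_mul, mul_add, mul_add, a2, a5, hz.idem] at b2
    have b3 : v₂ * star v₂ = 0 := by
      have b4 : v₁ * star v₁ = 1 - zf := by rw [← b2]; abel
      rw [b4] at e₃
      exact add_eq_left.1 e₃
    have b5 : v₂ = 0 := (CStarRing.mul_star_self_eq_zero_iff v₂).1 b3
    rw [b5, mul_zero] at e₂
    exact (sub_eq_zero.1 e₂.symm).symm
  obtain ⟨A, h2, h3, h4⟩ := exists_fin_functional hz hfin hsep
  exact ⟨A, h2, h3.trans (Subtype.ext h1), h4⟩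

end Vale.Agent.N082
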